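import Vale.Agent.P281.H64.Z.Defs
import Vale.Agent.P281.H702.HK.HF2

/-!
# P281 (helper702): closed holomorphic 2-forms on a manifold, with and without charts
-/

open Set Filter Metric Vale.Agent.P272.K
open scoped Topology ContDiff Manifold

noncomputable section

set_option maxSynthPendingDepth 3

namespace Vale.Agent.P281.H702.Z

open Vale.Agent.P281.H64.TK (jac dd)
open Vale.Agent.P281.H83.HK (IsHol2)
open Vale.Agent.P281.H702.HK (mf mf_apply mf_alt mf_analytic mf_fd mf_closed rad rad_analytic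
  rad_d B2 sum_rot)

section charts
variable {d : ℕ} {F : Type} [TopologicalSpace F] [ChartedSpace (Cm d) F]

/-- The derivative of a chart. -/
def Dc (e : Chart d F) (x : F) : Cm d →L[ℂ] Cm d := mfderiv 𝓘(ℂ, Cm d) 𝓘(ℂ, Cm d) e x

/-- The derivative of the inverse of a chart. -/
def Di (e : Chart d F) (z : Cm d) : Cm d →L[ℂ] Cm d :=
  mfderiv 𝓘(ℂ, Cm d) 𝓘(ℂ, Cm d) e.symm z

variable [IsManifold 𝓘(ℂ, Cm d) ω F]

theorem chart_at {e : Chart d F} (he : e ∈ atlas (Cm d) F) {x : F} (hx : x ∈ e.source) :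
    ContMDiffAt 𝓘(ℂ, Cm d) 𝓘(ℂ, Cm d) ω e x :=
  contMDiffAt_of_mem_maximalAtlas (IsManifold.subset_maximalAtlas he) hx

theorem symm_at {e : Chart d F} (he : e ∈ atlas (Cm d) F) {v : Cm d} (hv : v ∈ e.target) :
    ContMDiffAt 𝓘(ℂ, Cm d) 𝓘(ℂ, Cm d) ω e.symm v :=
  contMDiffAt_symm_of_mem_maximalAtlas (IsManifold.subset_maximalAtlas he) hv

/-- the differential in a chart -/
theorem dif_Di {e : Chart d F} (he : e ∈ atlas (Cm d) F) {z : Cm d} (hz : z ∈ e.target)
    {g : F → ℂ} (hg : J.HolAt (Cm d) g (e.symm z)) :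
    fderiv ℂ (fun v => g (e.symm v)) z = (J.dif (Cm d) g (e.symm z)).comp (Di e z) := by
  have h1 : MDifferentiableAt 𝓘(ℂ, Cm d) 𝓘(ℂ, ℂ) g (e.symm z) :=
    ContMDiffAt.mdifferentiableAt hg (by simp)
  have h2 : MDifferentiableAt 𝓘(ℂ, Cm d) 𝓘(ℂ, Cm d) e.symm z :=
    ContMDiffAt.mdifferentiableAt (symm_at he hz) (by simp)
  have h3 := mfderiv_comp z h1 h2
  rw [← mfderiv_eq_fderiv]
  exact h3

theorem fd_change {e e' : Chart d F} (he : e ∈ atlas (Cm d) F) (he' : e' ∈ atlas (Cm d) F)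
    {z : Cm d} (hz : z ∈ e.target) (hz' : e.symm z ∈ e'.source) :
    fderiv ℂ (fun u => e' (e.symm u)) z = (Dc e' (e.symm z)).comp (Di e z) := by
  have h1 : MDifferentiableAt 𝓘(ℂ, Cm d) 𝓘(ℂ, Cm d) e' (e.symm z) :=
    ContMDiffAt.mdifferentiableAt (chart_at he' hz') (by simp)
  have h2 : MDifferentiableAt 𝓘(ℂ, Cm d) 𝓘(ℂ, Cm d) e.symm z :=
    ContMDiffAt.mdifferentiableAt (symm_at he hz) (by simp)
  have h3 := mfderiv_comp z h1 h2
  rw [← mfderiv_eq_fderiv]
  exact h3

theorem Dc_Di {e : Chart d F} (he : e ∈ atlas (Cm d) F) {z : Cm d} (hz : z ∈ e.target) :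
    (Dc e (e.symm z)).comp (Di e z) = ContinuousLinearMap.id ℂ (Cm d) := by
  rw [← fd_change he he hz (e.map_target hz)]
  have h1 : (fun u => e (e.symm u)) =ᶠ[𝓝 z] id := by
    filter_upwards [e.open_target.mem_nhds hz] with u hu
    exact e.right_inv hu
  rw [h1.fderiv_eq, fderiv_id]

theorem Di_Dc {e : Chart d F} (he : e ∈ atlas (Cm d) F) {x : F} (hx : x ∈ e.source) :
    (Di e (e x)).comp (Dc e x) = ContinuousLinearMap.id ℂ (Cm d) := by
  have h := Dc_Di he (e.map_source hx)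
  rw [e.left_inv hx] at h
  have h1 : Function.Injective (Di e (e x)) := fun a b hab => by
    have := congrArg (Dc e x) hab
    have e1 : ∀ a, Dc e x (Di e (e x) a) = a := fun a => congrArg (fun L : Cm d →L[ℂ] Cm d => L a) h
    rwa [e1, e1] at this
  have h2 : Function.Surjective (Di e (e x)) :=
    (LinearMap.injective_iff_surjective (f := (Di e (e x)).toLinearMap)).1 h1
  refine ContinuousLinearMap.ext fun v => ?_
  obtain ⟨a, rfl⟩ := h2 v
  have e1 : Dc e x (Di e (e x) a) = a := congrArg (fun L : Cm d →L[ℂ] Cm d => L a) h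
  show Di e (e x) (Dc e x (Di e (e x) a)) = Di e (e x) a
  rw [e1]

/-- the derivative of the preferred chart is the identity -/
theorem Dc_chartAt (x : F) : Dc (chartAt (Cm d) x) x = ContinuousLinearMap.id ℂ (Cm d) := by
  have h : MDifferentiableAt 𝓘(ℂ, Cm d) 𝓘(ℂ, Cm d) (chartAt (Cm d) x : F → Cm d) x :=
    ContMDiffAt.mdifferentiableAt (chart_at (chart_mem_atlas _ _) (mem_chart_source _ _))
      (by simp)
  unfold Dc
  rw [h.mfderiv]
  simp only [mfld_simps, fderivWithin_univ]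
  have h1 : ((chartAt (Cm d) x : F → Cm d) ∘ (chartAt (Cm d) x).symm) =ᶠ[𝓝 (chartAt (Cm d) x x)]
      id := by
    filter_upwards [(chartAt (Cm d) x).open_target.mem_nhds (mem_chart_target (Cm d) x)]
      with u hu
    exact (chartAt (Cm d) x).right_inv hu
  exact h1.fderiv_eq.trans fderiv_id

theorem holAt_of {e : Chart d F} (he : e ∈ atlas (Cm d) F) {x : F} (hx : x ∈ e.source)
    {g : Cm d → ℂ} (hg : AnalyticAt ℂ g (e x)) : J.HolAt (Cm d) (fun y => g (e y)) x :=
  ContMDiffAt.comp (g := g) x hg.contDiffAt.contMDiffAt (chart_at he hx)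

theorem an_of {e : Chart d F} (he : e ∈ atlas (Cm d) F) {v : Cm d} (hv : v ∈ e.target)
    {g : F → ℂ} (hg : J.HolAt (Cm d) g (e.symm v)) : AnalyticAt ℂ (fun v => g (e.symm v)) v := by
  have h3 : ContMDiffAt 𝓘(ℂ, Cm d) 𝓘(ℂ, ℂ) ω (fun v => g (e.symm v)) v :=
    ContMDiffAt.comp (g := g) v hg (symm_at he hv)
  exact (contMDiffAt_iff_contDiffAt.1 h3).analyticAt

/-- the differential of a function of the coordinates -/
theorem dif_Dc {e : Chart d F} (he : e ∈ atlas (Cm d) F) {x : F} (hx : x ∈ e.source)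
    {g : Cm d → ℂ} (hg : AnalyticAt ℂ g (e x)) :
    J.dif (Cm d) (fun y => g (e y)) x = (fderiv ℂ g (e x)).comp (Dc e x) := by
  have h1 : MDifferentiableAt 𝓘(ℂ, Cm d) 𝓘(ℂ, ℂ) g (e x) :=
    hg.differentiableAt.mdifferentiableAt
  have h2 : MDifferentiableAt 𝓘(ℂ, Cm d) 𝓘(ℂ, Cm d) e x :=
    ContMDiffAt.mdifferentiableAt (chart_at he hx) (by simp)
  have h3 := mfderiv_comp x h1 h2
  rw [mfderiv_eq_fderiv] at h3
  exact h3

end charts

/-! ### Algebra -/

section alg
variable {d : ℕ}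

theorem fd_jac (θ : Cm d → Cm d) (z u : Cm d) (l : Fin d) :
    fderiv ℂ θ z u l = ∑ k, jac θ z l k * u k := by
  conv_lhs => rw [pi_eq_sum_univ' u]
  rw [map_sum, Finset.sum_apply]
  refine Finset.sum_congr rfl fun k _ => ?_
  rw [map_smul, Pi.smul_apply, smul_eq_mul, mul_comm]
  simp only [jac, Matrix.of_apply]

theorem mf_single (m : Matrix (Fin d) (Fin d) ℂ) (j k : Fin d) :
    mf m (Pi.single j 1) (Pi.single k 1) = m j k := by
  rw [mf_apply, Finset.sum_eq_single j, Finset.sum_eq_single k]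
  · simp
  · intro b _ hb
    simp [Pi.single_eq_of_ne hb]
  · intro h
    exact absurd (Finset.mem_univ _) h
  · intro b _ hb
    simp [Pi.single_eq_of_ne hb]
  · intro h
    exact absurd (Finset.mem_univ _) h

/-- The matrix of a bilinear form. -/
theorem mf_of (β : B2 d) (L : Cm d →L[ℂ] Cm d) (u v : Cm d) :
    mf (Matrix.of fun j k => β (L (Pi.single j 1)) (L (Pi.single k 1))) u v =
      β (L u) (L v) := by
  rw [mf_apply]
  conv_rhs => rw [pi_eq_sum_univ' u, pi_eq_sum_univ' v]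
  simp only [map_sum, map_smul, sum_apply, smul_apply, smul_eq_mul, Finset.mul_sum,
    Matrix.of_apply]
  rw [Finset.sum_comm]
  refine Finset.sum_congr rfl fun j _ => Finset.sum_congr rfl fun k _ => ?_
  ring

theorem snd_symm {a : Cm d → ℂ} {z : Cm d} (ha : AnalyticAt ℂ a z) (u v : Cm d) :
    fderiv ℂ (fderiv ℂ a) z u v = fderiv ℂ (fderiv ℂ a) z v u :=
  (ha.contDiffAt (n := ω)).isSymmSndFDerivAt (by simp) u v

theorem fd_has {a : Cm d → ℂ} {z : Cm d} (ha : AnalyticAt ℂ a z) (v : Cm d) :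
    HasFDerivAt (fun w => fderiv ℂ a w v)
      ((ContinuousLinearMap.apply ℂ ℂ v).comp (fderiv ℂ (fderiv ℂ a) z)) z :=
  (ContinuousLinearMap.apply ℂ ℂ v).hasFDerivAt.comp z ha.fderiv.differentiableAt.hasFDerivAt

theorem dd_prod {a b : Cm d → ℂ} {z : Cm d} (ha : AnalyticAt ℂ a z) (hb : AnalyticAt ℂ b z)
    (l : Fin d) (u v : Cm d) :
    dd l (fun w => fderiv ℂ a w u * fderiv ℂ b w v - fderiv ℂ a w v * fderiv ℂ b w u) z =
      (fderiv ℂ (fderiv ℂ a) z (Pi.single l 1) u * fderiv ℂ b z v +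
        fderiv ℂ a z u * fderiv ℂ (fderiv ℂ b) z (Pi.single l 1) v) -
      (fderiv ℂ (fderiv ℂ a) z (Pi.single l 1) v * fderiv ℂ b z u +
        fderiv ℂ a z v * fderiv ℂ (fderiv ℂ b) z (Pi.single l 1) u) := by
  have h1 := ((fd_has ha u).mul (fd_has hb v)).sub ((fd_has ha v).mul (fd_has hb u))
  unfold dd
  have h2 : fderiv ℂ (fun w => fderiv ℂ a w u * fderiv ℂ b w v -
    fderiv ℂ a w v * fderiv ℂ b w u) z = _ := h1.fderiv
  rw [h2]
  simp only [sub_apply, add_apply, smul_apply, ContinuousLinearMap.comp_apply,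
    ContinuousLinearMap.apply_apply, smul_eq_mul]
  ring

theorem dd_closed {m : ℕ} {a b : Fin m → Cm d → ℂ} {z : Cm d}
    (h : ∀ i, AnalyticAt ℂ (a i) z ∧ AnalyticAt ℂ (b i) z) (j k l : Fin d) :
    dd l (fun w => ∑ i, (fderiv ℂ (a i) w (Pi.single j 1) * fderiv ℂ (b i) w (Pi.single k 1) -
        fderiv ℂ (a i) w (Pi.single k 1) * fderiv ℂ (b i) w (Pi.single j 1))) z +
      dd j (fun w => ∑ i, (fderiv ℂ (a i) w (Pi.single k 1) * fderiv ℂ (b i) w (Pi.single l 1) -
        fderiv ℂ (a i) w (Pi.single l 1) * fderiv ℂ (b i) w (Pi.single k 1))) z +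
      dd k (fun w => ∑ i, (fderiv ℂ (a i) w (Pi.single l 1) * fderiv ℂ (b i) w (Pi.single j 1) -
        fderiv ℂ (a i) w (Pi.single j 1) * fderiv ℂ (b i) w (Pi.single l 1))) z = 0 := by
  have e : ∀ (l : Fin d) (u v : Cm d), dd l (fun w => ∑ i, (fderiv ℂ (a i) w u *
      fderiv ℂ (b i) w v - fderiv ℂ (a i) w v * fderiv ℂ (b i) w u)) z =
      ∑ i, dd l (fun w => fderiv ℂ (a i) w u * fderiv ℂ (b i) w v -
        fderiv ℂ (a i) w v * fderiv ℂ (b i) w u) z := by
    intro l u v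
    unfold dd
    have hd : ∀ i, DifferentiableAt ℂ (fun w => fderiv ℂ (a i) w u * fderiv ℂ (b i) w v -
        fderiv ℂ (a i) w v * fderiv ℂ (b i) w u) z := fun i =>
      (((fd_has (h i).1 u).mul (fd_has (h i).2 v)).sub
        ((fd_has (h i).1 v).mul (fd_has (h i).2 u))).differentiableAt
    rw [fderiv_fun_sum fun i _ => hd i, sum_apply]
  rw [e, e, e, ← Finset.sum_add_distrib, ← Finset.sum_add_distrib]
  refine Finset.sum_eq_zero fun i _ => ?_
  rw [dd_prod (h i).1 (h i).2, dd_prod (h i).1 (h i).2, dd_prod (h i).1 (h i).2,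
    snd_symm (h i).1 (Pi.single l 1) (Pi.single j 1),
    snd_symm (h i).1 (Pi.single l 1) (Pi.single k 1),
    snd_symm (h i).1 (Pi.single j 1) (Pi.single k 1),
    snd_symm (h i).2 (Pi.single l 1) (Pi.single j 1),
    snd_symm (h i).2 (Pi.single l 1) (Pi.single k 1),
    snd_symm (h i).2 (Pi.single j 1) (Pi.single k 1)]
  ring

end alg

/-! ### From forms to matrices -/

section fwd
variable {d : ℕ} {F : Type} [TopologicalSpace F] [ChartedSpace (Cm d) F]

open Vale.Agent.P281.H64.Z (Closed2)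

/-- The matrices of a 2-form in the charts. -/
def cf (α : F → Cm d → Cm d → ℂ) (e : Chart d F) (z : Cm d) : Matrix (Fin d) (Fin d) ℂ :=
  Matrix.of fun j k => α (e.symm z) (Di e z (Pi.single j 1)) (Di e z (Pi.single k 1))

/-- The form at a point is bilinear and alternating. -/
theorem bil_of {α : F → Cm d → Cm d → ℂ} (hα : Closed2 d α) (x : F) :
    ∃ β : B2 d, (∀ u v, α x u v = β u v) ∧ ∀ u v, α x u v = -α x v u := by
  obtain ⟨m, ψ, φ, -, h⟩ := hα x
  have h0 := h.self_of_nhds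
  refine ⟨∑ j, ((J.dif (Cm d) (ψ j) x).smulRight (J.dif (Cm d) (φ j) x) -
    (J.dif (Cm d) (φ j) x).smulRight (J.dif (Cm d) (ψ j) x)), fun u v => ?_, fun u v => ?_⟩
  · rw [h0 u v]
    simp only [sum_apply, sub_apply, ContinuousLinearMap.smulRight_apply, smul_apply, smul_eq_mul]
    exact Finset.sum_congr rfl fun j _ => by ring
  · rw [h0 u v, h0 v u, ← Finset.sum_neg_distrib]
    exact Finset.sum_congr rfl fun j _ => by ring

theorem cf_mf {α : F → Cm d → Cm d → ℂ} (hα : Closed2 d α) (e : Chart d F) (z u v : Cm d) :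
    mf (cf α e z) u v = α (e.symm z) (Di e z u) (Di e z v) := by
  obtain ⟨β, hβ, -⟩ := bil_of hα (e.symm z)
  rw [hβ, ← mf_of]
  simp only [cf, hβ]

theorem cf_alt {α : F → Cm d → Cm d → ℂ} (hα : Closed2 d α) (e : Chart d F) (z : Cm d) :
    (cf α e z).transpose = -cf α e z := by
  obtain ⟨β, -, h⟩ := bil_of hα (e.symm z)
  ext j k
  simp only [Matrix.transpose_apply, Matrix.neg_apply, cf, Matrix.of_apply]
  exact h _ _

variable [IsManifold 𝓘(ℂ, Cm d) ω F]

/-- The form in a chart, near a point. -/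
theorem cf_loc {α : F → Cm d → Cm d → ℂ} (hα : Closed2 d α) {e : Chart d F}
    (he : e ∈ atlas (Cm d) F) {z : Cm d} (hz : z ∈ e.target) :
    ∃ (m : ℕ) (a b : Fin m → Cm d → ℂ), (∀ i, AnalyticAt ℂ (a i) z ∧ AnalyticAt ℂ (b i) z) ∧
      ∀ᶠ w in 𝓝 z, ∀ u v, α (e.symm w) (Di e w u) (Di e w v) =
        ∑ i, (fderiv ℂ (a i) w u * fderiv ℂ (b i) w v -
          fderiv ℂ (a i) w v * fderiv ℂ (b i) w u) := by
  obtain ⟨m, ψ, φ, h1, h2⟩ := hα (e.symm z)
  refine ⟨m, fun i v => ψ i (e.symm v), fun i v => φ i (e.symm v),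
    fun i => ⟨an_of he hz (h1 i).1, an_of he hz (h1 i).2⟩, ?_⟩
  have h3 : ∀ᶠ y in 𝓝 (e.symm z), ∀ i, J.HolAt (Cm d) (ψ i) y ∧ J.HolAt (Cm d) (φ i) y := by
    rw [Filter.eventually_all]
    intro i
    exact ((contMDiffAt_iff_contMDiffAt_nhds (by simp)).1 (h1 i).1).and
      ((contMDiffAt_iff_contMDiffAt_nhds (by simp)).1 (h1 i).2)
  have h4 : Tendsto e.symm (𝓝 z) (𝓝 (e.symm z)) := e.continuousAt_symm hz
  filter_upwards [e.open_target.mem_nhds hz, h4.eventually h2, h4.eventually h3]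
    with w k1 k2 k3 u v
  rw [k2]
  refine Finset.sum_congr rfl fun i _ => ?_
  rw [dif_Di he k1 (k3 i).1, dif_Di he k1 (k3 i).2]
  rfl

/-- The matrices of a closed holomorphic 2-form are a closed holomorphic 2-form. -/
theorem cf_hol2 {α : F → Cm d → Cm d → ℂ} (hα : Closed2 d α) : IsHol2 (cf α) where
  hol e he j k z hz := by
    obtain ⟨m, a, b, h1, h2⟩ := cf_loc hα he hz
    have h3 : (fun w => cf α e w j k) =ᶠ[𝓝 z] fun w => ∑ i,
        (fderiv ℂ (a i) w (Pi.single j 1) * fderiv ℂ (b i) w (Pi.single k 1) -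
          fderiv ℂ (a i) w (Pi.single k 1) * fderiv ℂ (b i) w (Pi.single j 1)) := by
      filter_upwards [h2] with w hw
      exact hw _ _
    refine (DifferentiableAt.congr_of_eventuallyEq ?_ h3).differentiableWithinAt
    exact DifferentiableAt.fun_sum fun i _ =>
      (((fd_has (h1 i).1 _).mul (fd_has (h1 i).2 _)).sub
        ((fd_has (h1 i).1 _).mul (fd_has (h1 i).2 _))).differentiableAt
  alt e he z hz := cf_alt hα e z
  closed e he z hz j k l := by
    obtain ⟨m, a, b, h1, h2⟩ := cf_loc hα he hz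
    have h3 : ∀ j k l, dd l (fun w => cf α e w j k) z = dd l (fun w => ∑ i,
        (fderiv ℂ (a i) w (Pi.single j 1) * fderiv ℂ (b i) w (Pi.single k 1) -
          fderiv ℂ (a i) w (Pi.single k 1) * fderiv ℂ (b i) w (Pi.single j 1))) z := by
      intro j k l
      unfold dd
      rw [Filter.EventuallyEq.fderiv_eq]
      filter_upwards [h2] with w hw
      exact hw _ _
    rw [h3, h3, h3]
    exact dd_closed h1 j k l
  change e he e' he' x hx := by
    have hz : e x ∈ e.target := e.map_source hx.1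
    have hz' : e.symm (e x) ∈ e'.source := by rw [e.left_inv hx.1]; exact hx.2
    have hfd := fd_change he he' hz hz'
    rw [e.left_inv hx.1] at hfd
    have key : ∀ u, Di e' (e' x) (fderiv ℂ (fun u => e' (e.symm u)) (e x) u) = Di e (e x) u := by
      intro u
      rw [hfd]
      exact congrArg (fun L : Cm d →L[ℂ] Cm d => L (Di e (e x) u)) (Di_Dc he' hx.2)
    ext j k
    have h1 : cf α e (e x) j k = α x (Di e (e x) (Pi.single j 1)) (Di e (e x) (Pi.single k 1)) := by
      simp only [cf, Matrix.of_apply, e.left_inv hx.1]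
    set Jm := jac (fun u => e' (e.symm u)) (e x) with hJ
    have h2 : (Jm.transpose * cf α e' (e' x) * Jm) j k =
        mf (Jm.transpose * cf α e' (e' x) * Jm) (Pi.single j 1) (Pi.single k 1) :=
      (mf_single _ j k).symm
    rw [h1, h2, H702.HK.mf_change (fd_jac (fun u => e' (e.symm u)) (e x) (Pi.single j 1))
        (fd_jac (fun u => e' (e.symm u)) (e x) (Pi.single k 1)), cf_mf hα, key, key,
      e'.left_inv hx.2]

theorem cf_det {α : F → Cm d → Cm d → ℂ} (hα : Closed2 d α) {x : F}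
    (hx : ∀ u, (∀ v, α x u v = 0) → u = 0) :
    (cf α (chartAt (Cm d) x) (chartAt (Cm d) x x)).det ≠ 0 := by
  intro h0
  obtain ⟨w, hw, hw0⟩ := Matrix.exists_mulVec_eq_zero_iff.2 h0
  set e := chartAt (Cm d) x with he
  have hxs : x ∈ e.source := mem_chart_source _ _
  have hinv : e.symm (e x) = x := e.left_inv hxs
  have h1 : ∀ u, mf (cf α e (e x)) u w = 0 := by
    intro u
    rw [mf_apply]
    have h2 : ∀ j, ∑ k, cf α e (e x) j k * (u j * w k) =
        u j * (cf α e (e x)).mulVec w j := by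
      intro j
      simp only [Matrix.mulVec, dotProduct, Finset.mul_sum]
      exact Finset.sum_congr rfl fun k _ => by ring
    simp only [h2, hw0, Pi.zero_apply, mul_zero, Finset.sum_const_zero]
  obtain ⟨β, -, halt⟩ := bil_of hα x
  have h3 : Di e (e x) w = 0 := by
    refine hx _ fun v => ?_
    have h4 := h1 (Dc e x v)
    rw [cf_mf hα, hinv] at h4
    have h5 : Di e (e x) (Dc e x v) = v :=
      congrArg (fun L : Cm d →L[ℂ] Cm d => L v) (Di_Dc (chart_mem_atlas _ _) hxs)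
    rw [h5] at h4
    rw [halt, h4, neg_zero]
  have h6 : Dc e x (Di e (e x) w) = w := by
    have h7 := Dc_Di (chart_mem_atlas (Cm d) x) (e.map_source hxs)
    rw [← he, hinv] at h7
    exact congrArg (fun L : Cm d →L[ℂ] Cm d => L w) h7
  rw [h3, map_zero] at h6
  exact hw h6.symm

end fwd

/-! ### From matrices to forms -/

section bwd
variable {d : ℕ} {F : Type} [TopologicalSpace F] [ChartedSpace (Cm d) F]
  [IsManifold 𝓘(ℂ, Cm d) ω F]

open Vale.Agent.P281.H64.Z (Closed2)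

/-- The form of the matrices. -/
def be (s : Chart d F → Cm d → Matrix (Fin d) (Fin d) ℂ) (x : F) (u v : Cm d) : ℂ :=
  mf (s (chartAt (Cm d) x) (chartAt (Cm d) x x)) u v

theorem be_eq {s : Chart d F → Cm d → Matrix (Fin d) (Fin d) ℂ} (hs : IsHol2 s) {e : Chart d F}
    (he : e ∈ atlas (Cm d) F) {x : F} (hx : x ∈ e.source) (u v : Cm d) :
    be s x u v = mf (s e (e x)) (Dc e x u) (Dc e x v) := by
  set e₁ := chartAt (Cm d) x with he₁
  have he₁a : e₁ ∈ atlas (Cm d) F := chart_mem_atlas _ _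
  have hx₁ : x ∈ e₁.source := mem_chart_source _ _
  have h1 := hs.change e₁ he₁a e he x ⟨hx₁, hx⟩
  have hz' : e₁.symm (e₁ x) ∈ e.source := by rw [e₁.left_inv hx₁]; exact hx
  have hfd := fd_change he₁a he (e₁.map_source hx₁) hz'
  rw [e₁.left_inv hx₁] at hfd
  have h2 : ∀ u, Di e₁ (e₁ x) u = u := by
    intro u
    have h3 := congrArg (fun L : Cm d →L[ℂ] Cm d => L u) (Di_Dc he₁a hx₁)
    rw [Dc_chartAt x] at h3
    exact h3
  have h4 : ∀ u, fderiv ℂ (fun u => e (e₁.symm u)) (e₁ x) u = Dc e x u := by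
    intro u
    rw [hfd]
    show Dc e x (Di e₁ (e₁ x) u) = _
    rw [h2]
  unfold be
  rw [← he₁, h1, H702.HK.mf_change (fd_jac (fun u => e (e₁.symm u)) (e₁ x) u)
    (fd_jac (fun u => e (e₁.symm u)) (e₁ x) v), h4, h4]

/-- The Poincaré lemma on a ball. -/
theorem prim_ball {s : Cm d → Matrix (Fin d) (Fin d) ℂ} {c : Cm d} {r : ℝ}
    (hol : ∀ j k, DifferentiableOn ℂ (fun z => s z j k) (ball c r))
    (alt : ∀ z ∈ ball c r, (s z).transpose = -s z)
    (hcl : ∀ z ∈ ball c r, ∀ j k l, dd l (fun z => s z j k) z + dd j (fun z => s z k l) z +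
      dd k (fun z => s z l j) z = 0) :
    ∃ b : Cm d → (Cm d →L[ℂ] ℂ), (∀ z ∈ ball c r, AnalyticAt ℂ b z) ∧
      ∀ z ∈ ball c r, ∀ u v, fderiv ℂ b z u v - fderiv ℂ b z v u = mf (s z) u v := by
  have hmem : ∀ z ∈ ball (0 : Cm d) r, c + z ∈ ball c r := by
    intro z hz
    rw [mem_ball_zero_iff] at hz
    rw [mem_ball_iff_norm]
    simpa using hz
  have hmem' : ∀ z ∈ ball c r, z - c ∈ ball (0 : Cm d) r := by
    intro z hz
    rw [mem_ball_iff_norm] at hz
    rwa [mem_ball_zero_iff]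
  set A : Cm 0 × Cm d → B2 d := fun q => mf (s (c + q.2)) with hAd
  have hsa : ∀ z ∈ ball c r, ∀ j k, AnalyticAt ℂ (fun z => s z j k) z := fun z hz j k =>
    MF.analyticAt_of_differentiableOn isOpen_ball (hol j k) hz
  have hadd : ∀ q : Cm 0 × Cm d, AnalyticAt ℂ (fun q : Cm 0 × Cm d => c + q.2) q := fun q =>
    analyticAt_const.add analyticAt_snd
  have hA : ∀ z ∈ ball (0 : Cm d) r, AnalyticAt ℂ A ((0 : Cm 0), z) := by
    intro z hz
    refine mf_analytic fun j k => ?_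
    exact AnalyticAt.fun_comp (g := fun z => s z j k) (f := fun q : Cm 0 × Cm d => c + q.2)
      (hsa (c + z) (hmem z hz) j k) (hadd _)
  have hsh : ∀ z, fderiv ℂ (fun z => A ((0 : Cm 0), z)) z =
      fderiv ℂ (fun z => mf (s z)) (c + z) := fun z =>
    fderiv_comp_add_left (f := fun z => mf (s z)) c
  have hd : ∀ z ∈ ball (0 : Cm d) r, ∀ u v,
      fderiv ℂ (fun z => rad A ((0 : Cm 0), z)) z u v -
        fderiv ℂ (fun z => rad A ((0 : Cm 0), z)) z v u = mf (s (c + z)) u v := by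
    intro z hz u v
    refine rad_d hA (fun z hz u v => mf_alt (alt _ (hmem z hz)) u v) (fun z hz u v w => ?_) hz u v
    rw [hsh]
    exact mf_closed (fun j k => (hsa _ (hmem z hz) j k).differentiableAt) (hcl _ (hmem z hz)) u v w
  refine ⟨fun z => rad A ((0 : Cm 0), z - c), fun z hz => ?_, fun z hz u v => ?_⟩
  · refine AnalyticAt.fun_comp (g := rad A) (f := fun z : Cm d => ((0 : Cm 0), z - c))
      (rad_analytic hA (hmem' z hz)) ?_
    exact AnalyticAt.prod analyticAt_const (analyticAt_id.sub analyticAt_const)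
  · have h5 : fderiv ℂ (fun z => rad A ((0 : Cm 0), z - c)) z =
        fderiv ℂ (fun z => rad A ((0 : Cm 0), z)) (z - c) :=
      fderiv_comp_sub (f := fun z => rad A ((0 : Cm 0), z)) c
    rw [h5, hd _ (hmem' z hz)]
    rw [add_sub_cancel]

/-- The form of a closed holomorphic 2-form given by matrices. -/
theorem be_closed {s : Chart d F → Cm d → Matrix (Fin d) (Fin d) ℂ} (hs : IsHol2 s) :
    Closed2 d (be s) := by
  intro x
  set e := chartAt (Cm d) x with he
  have hea : e ∈ atlas (Cm d) F := chart_mem_atlas _ _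
  have hx : x ∈ e.source := mem_chart_source _ _
  obtain ⟨r, hr, hrt⟩ := Metric.isOpen_iff.1 e.open_target (e x) (e.map_source hx)
  obtain ⟨b, hb, hbd⟩ := prim_ball (s := s e) (fun j k => (hs.hol e hea j k).mono hrt)
    (fun z hz => hs.alt e hea z (hrt hz)) (fun z hz => hs.closed e hea z (hrt hz))
  have hbk : ∀ z ∈ ball (e x) r, ∀ k : Fin d, AnalyticAt ℂ (fun w => b w (Pi.single k 1)) z :=
    fun z hz k => ((ContinuousLinearMap.apply ℂ ℂ (Pi.single k (1 : ℂ) : Cm d)).analyticAt _).comp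
      (hb z hz)
  have hpk : ∀ z, ∀ k : Fin d, AnalyticAt ℂ (fun w : Cm d => w k) z := fun z k =>
    (ContinuousLinearMap.proj (R := ℂ) (φ := fun _ : Fin d => ℂ) k).analyticAt z
  refine ⟨d, fun k y => b (e y) (Pi.single k 1), fun k y => e y k, fun k => ⟨?_, ?_⟩, ?_⟩
  · exact holAt_of hea hx (hbk _ (mem_ball_self hr) k)
  · exact holAt_of hea hx (hpk _ k)
  · filter_upwards [e.open_source.mem_nhds hx,
      (e.continuousAt hx).eventually (isOpen_ball.mem_nhds (mem_ball_self hr))] with y hy hyb u v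
    rw [be_eq hs hea hy, ← hbd _ hyb]
    have h1 : ∀ a c : Cm d, fderiv ℂ b (e y) a c =
        ∑ k, fderiv ℂ (fun w => b w (Pi.single k 1)) (e y) a * c k := by
      intro a c
      have h2 : ∀ k, fderiv ℂ (fun w => b w (Pi.single k 1)) (e y) a =
          fderiv ℂ b (e y) a (Pi.single k 1) := by
        intro k
        have h3 := ((ContinuousLinearMap.apply ℂ ℂ (Pi.single k (1 : ℂ) : Cm d)).hasFDerivAt.comp
          (e y) (hb _ hyb).differentiableAt.hasFDerivAt).fderiv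
        exact congrArg (fun L : Cm d →L[ℂ] ℂ => L a) h3
      conv_lhs => rw [pi_eq_sum_univ' c]
      rw [map_sum]
      refine Finset.sum_congr rfl fun k _ => ?_
      rw [map_smul, smul_eq_mul, h2, mul_comm]
    have h4 : ∀ k : Fin d, ∀ a, J.dif (Cm d) (fun y => b (e y) (Pi.single k 1)) y a =
        fderiv ℂ (fun w => b w (Pi.single k 1)) (e y) (Dc e y a) := by
      intro k a
      rw [dif_Dc hea hy (hbk _ hyb k)]
      rfl
    have h5 : ∀ k : Fin d, ∀ a, J.dif (Cm d) (fun y => e y k) y a = Dc e y a k := by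
      intro k a
      rw [dif_Dc hea hy (hpk _ k)]
      have h6 : fderiv ℂ (fun w : Cm d => w k) (e y) =
          ContinuousLinearMap.proj (R := ℂ) (φ := fun _ : Fin d => ℂ) k :=
        (ContinuousLinearMap.proj (R := ℂ) (φ := fun _ : Fin d => ℂ) k).fderiv
      rw [h6]
      rfl
    rw [h1, h1, ← Finset.sum_sub_distrib]
    refine Finset.sum_congr rfl fun k _ => ?_
    show _ = J.dif (Cm d) _ y u * J.dif (Cm d) _ y v - J.dif (Cm d) _ y v * J.dif (Cm d) _ y u
    rw [h4, h4, h5, h5]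

/-- **[BR2]** -/
theorem sympl_hk (h : H64.Z.Sympl d F) : H83.HK.Sympl d F := by
  obtain ⟨α, hα, ⟨x, hx⟩, huniq⟩ := h
  refine ⟨cf α, cf_hol2 hα, ⟨chartAt (Cm d) x, chart_mem_atlas _ _, chartAt (Cm d) x x,
    mem_chart_target _ _, cf_det hα hx⟩, fun s hs => ?_⟩
  obtain ⟨c, hc⟩ := huniq (be s) (be_closed hs)
  refine ⟨c, fun e he z hz => ?_⟩
  ext j k
  have h1 : ∀ u, Dc e (e.symm z) (Di e z u) = u := fun u =>
    congrArg (fun L : Cm d →L[ℂ] Cm d => L u) (Dc_Di he hz)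
  have h2 := hc (e.symm z) (Di e z (Pi.single j 1)) (Di e z (Pi.single k 1))
  rw [be_eq hs he (e.map_target hz), e.right_inv hz, h1, h1, mf_single] at h2
  rw [h2]
  rfl

end bwd

end Vale.Agent.P281.H702.Z
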