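import Vale.Agent.P281.H64.Z5.Defs
import Vale.Agent.P281.H83.HKT.Spec
import Vale.Agent.P281.H702.Z.Br2

/-!
# P281 (helper702): products of tori and symplectic manifolds, from the statement to the proof
-/

open Set Filter Metric Vale.Agent.P272.K
open scoped Topology ContDiff Manifold

noncomputable section

set_option maxSynthPendingDepth 3

namespace Vale.Agent.P281.H702.Z

section inv
variable {X Y : Type} [NormedAddCommGroup X] [NormedSpace ℂ X] [FiniteDimensional ℂ X]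
  [NormedAddCommGroup Y] [NormedSpace ℂ Y] [FiniteDimensional ℂ Y]

/-- The inverse function theorem. -/
theorem exists_inv (hXY : Module.finrank ℂ X = Module.finrank ℂ Y) {Φ : X → Y} {v : X}
    (hΦ : ContDiffAt ℂ ω Φ v) (hinj : ∀ u, fderiv ℂ Φ v u = 0 → u = 0) :
    ∃ T : Y → X, ContDiffAt ℂ ω T (Φ v) ∧ T (Φ v) = v ∧ ∀ᶠ r in 𝓝 (Φ v), Φ (T r) = r := by
  have : CompleteSpace X := FiniteDimensional.complete ℂ X
  have : CompleteSpace Y := FiniteDimensional.complete ℂ Y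
  have h1 : Function.Injective (fderiv ℂ Φ v).toLinearMap := by
    refine (injective_iff_map_eq_zero _).2 fun u hu => hinj u hu
  set L : X ≃L[ℂ] Y := (LinearEquiv.ofInjectiveOfFinrankEq (fderiv ℂ Φ v).toLinearMap h1
    hXY).toContinuousLinearEquiv with hL
  have h2 : HasFDerivAt Φ (L : X →L[ℂ] Y) v := by
    have h3 : (L : X →L[ℂ] Y) = fderiv ℂ Φ v := by
      refine ContinuousLinearMap.ext fun u => ?_
      rfl
    rw [h3]
    exact (hΦ.differentiableAt (by simp)).hasFDerivAt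
  refine ⟨hΦ.localInverse h2 (by simp), hΦ.to_localInverse h2 (by simp),
    hΦ.localInverse_apply_image h2 (by simp), ?_⟩
  exact (hΦ.hasStrictFDerivAt' h2 (by simp)).eventually_right_inverse

end inv

section
variable {d a h : ℕ} {F H : Type} [TopologicalSpace F] [ChartedSpace (Cm d) F]
  [TopologicalSpace H] [ChartedSpace (Cm h) H]

theorem bihol [IsManifold 𝓘(ℂ, Cm d) ω F] [IsManifold 𝓘(ℂ, Cm h) ω H] (hd : a + h = d)
    {g : Cm a → H → F} {z : Cm a} {x : H} {ζ : F → Cm a} {ξ : F → H} (h1 : ζ (g z x) = z)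
    (h2 : ξ (g z x) = x) (h3 : ContinuousAt ξ (g z x))
    (h4 : ∀ᶠ y in 𝓝 (g z x), g (ζ y) (ξ y) = y)
    (h5 : ∀ j, J.HolAt (Cm d) (fun y => ζ y j) (g z x))
    (h6 : ∀ ψ, J.HolAt (Cm h) ψ x → J.HolAt (Cm d) (fun y => ψ (ξ y)) (g z x))
    (h7 : ∀ v, (∀ j, J.dif (Cm d) (fun y => ζ y j) (g z x) v = 0) →
      (∀ ψ, J.HolAt (Cm h) ψ x → J.dif (Cm d) (fun y => ψ (ξ y)) (g z x) v = 0) → v = 0) :
    ContMDiffAt (𝓘(ℂ, Cm a).prod 𝓘(ℂ, Cm h)) 𝓘(ℂ, Cm d) ω (fun q : Cm a × H => g q.1 q.2)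
      (z, x) ∧ Function.Injective (mfderiv (𝓘(ℂ, Cm a).prod 𝓘(ℂ, Cm h)) 𝓘(ℂ, Cm d)
        (fun q : Cm a × H => g q.1 q.2) (z, x)) := by
  set y₀ := g z x with hy₀
  set c := chartAt (Cm d) y₀ with hc
  have hca : c ∈ atlas (Cm d) F := chart_mem_atlas _ _
  have hy : y₀ ∈ c.source := mem_chart_source _ _
  set e := chartAt (Cm h) x with he
  have hea : e ∈ atlas (Cm h) H := chart_mem_atlas _ _
  have hx : x ∈ e.source := mem_chart_source _ _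
  set v₀ := c y₀ with hv₀
  have hv : v₀ ∈ c.target := c.map_source hy
  have hcv : c.symm v₀ = y₀ := c.left_inv hy
  set η : F → Cm h := fun y => e (ξ y) with hη
  have hηj : ∀ k, J.HolAt (Cm d) (fun y => η y k) y₀ := fun k =>
    h6 (fun x' => e x' k) (holAt_of hea hx
      ((ContinuousLinearMap.proj (R := ℂ) (φ := fun _ : Fin h => ℂ) k).analyticAt _))
  set Φ : Cm d → Cm a × Cm h := fun v => (ζ (c.symm v), η (c.symm v)) with hΦ
  have hA : ContDiffAt ℂ ω (fun v => ζ (c.symm v)) v₀ :=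
    contDiffAt_pi.2 fun j => (an_of hca hv (by rw [hcv]; exact h5 j)).contDiffAt
  have hB : ContDiffAt ℂ ω (fun v => η (c.symm v)) v₀ :=
    contDiffAt_pi.2 fun k => (an_of hca hv (by rw [hcv]; exact hηj k)).contDiffAt
  have hΦd : ContDiffAt ℂ ω Φ v₀ := hA.prodMk hB
  have hDi : ∀ u, Di c v₀ u = u := by
    intro u
    have k1 := congrArg (fun L : Cm d →L[ℂ] Cm d => L u) (Di_Dc hca hy)
    rw [Dc_chartAt y₀] at k1
    exact k1
  have hdif : ∀ φ : F → ℂ, J.HolAt (Cm d) φ y₀ → ∀ u,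
      J.dif (Cm d) φ y₀ u = fderiv ℂ (fun v => φ (c.symm v)) v₀ u := by
    intro φ hφ u
    rw [dif_Di hca hv (by rw [hcv]; exact hφ), ContinuousLinearMap.comp_apply, hDi, hcv]
  have hev : ∀ᶠ y in 𝓝 y₀, ξ y ∈ e.source := by
    refine h3.eventually (e.open_source.mem_nhds ?_)
    rw [h2]
    exact hx
  have hct : Tendsto c.symm (𝓝 v₀) (𝓝 y₀) := by
    have := c.continuousAt_symm hv
    rwa [ContinuousAt, hcv] at this
  have hinj : ∀ u, fderiv ℂ Φ v₀ u = 0 → u = 0 := by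
    intro u hu
    have k1 : HasFDerivAt Φ ((fderiv ℂ (fun v => ζ (c.symm v)) v₀).prod
        (fderiv ℂ (fun v => η (c.symm v)) v₀)) v₀ :=
      (hA.differentiableAt (by simp)).hasFDerivAt.prodMk
        (hB.differentiableAt (by simp)).hasFDerivAt
    rw [k1.fderiv] at hu
    have k2 : fderiv ℂ (fun v => ζ (c.symm v)) v₀ u = 0 := congrArg Prod.fst hu
    have k3 : fderiv ℂ (fun v => η (c.symm v)) v₀ u = 0 := congrArg Prod.snd hu
    refine h7 u (fun j => ?_) (fun ψ hψ => ?_)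
    · rw [hdif _ (h5 j)]
      have k4 := (hasFDerivAt_pi'.1 (hA.differentiableAt (by simp)).hasFDerivAt) j
      have k5 : fderiv ℂ (fun v => ζ (c.symm v) j) v₀ u = _ :=
        congrArg (fun T : Cm d →L[ℂ] ℂ => T u) k4.fderiv
      rw [k5]
      show (fderiv ℂ (fun v => ζ (c.symm v)) v₀ u) j = 0
      rw [k2]
      rfl
    · rw [hdif _ (h6 ψ hψ)]
      have k4 : AnalyticAt ℂ (fun w => ψ (e.symm w)) (e x) :=
        an_of hea (e.map_source hx) (by rw [e.left_inv hx]; exact hψ)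
      have k5 : η (c.symm v₀) = e x := by
        show e (ξ (c.symm v₀)) = e x
        rw [hcv, h2]
      have k6 : HasFDerivAt (fun w => ψ (e.symm w)) (fderiv ℂ (fun w => ψ (e.symm w)) (e x))
          (η (c.symm v₀)) := by
        rw [k5]
        exact k4.differentiableAt.hasFDerivAt
      have k7 := k6.comp v₀ (hB.differentiableAt (by simp)).hasFDerivAt
      have k8 : (fun v => ψ (ξ (c.symm v))) =ᶠ[𝓝 v₀]
          ((fun w => ψ (e.symm w)) ∘ fun v => η (c.symm v)) := by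
        filter_upwards [hct.eventually hev] with v hv
        show ψ (ξ (c.symm v)) = ψ (e.symm (e (ξ (c.symm v))))
        rw [e.left_inv hv]
      rw [k8.fderiv_eq, k7.fderiv, ContinuousLinearMap.comp_apply, k3, map_zero]
  have hfr : Module.finrank ℂ (Cm d) = Module.finrank ℂ (Cm a × Cm h) := by
    simp [hd]
  obtain ⟨T, hT, hTv, hTr⟩ := exists_inv hfr hΦd hinj
  have hr₀ : Φ v₀ = (z, e x) := by
    show (ζ (c.symm v₀), e (ξ (c.symm v₀))) = (z, e x)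
    rw [hcv, h1, h2]
  rw [hr₀] at hT hTv hTr
  have k1 : ∀ᶠ v in 𝓝 v₀, g (Φ v).1 (e.symm (Φ v).2) = c.symm v := by
    filter_upwards [hct.eventually hev, hct.eventually h4] with v hv hv'
    show g (ζ (c.symm v)) (e.symm (e (ξ (c.symm v)))) = c.symm v
    rw [e.left_inv hv, hv']
  have hTt : Tendsto T (𝓝 (z, e x)) (𝓝 v₀) := by
    have := hT.continuousAt
    rwa [ContinuousAt, hTv] at this
  have k2 : ∀ᶠ r in 𝓝 (z, e x), g r.1 (e.symm r.2) = c.symm (T r) := by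
    filter_upwards [hTt.eventually k1, hTr] with r hr hr'
    rw [hr'] at hr
    exact hr
  have hq : ContinuousAt (fun q : Cm a × H => (q.1, e q.2)) (z, x) :=
    continuous_fst.continuousAt.prodMk
      (ContinuousAt.comp (g := e) (e.continuousAt hx) continuous_snd.continuousAt)
  have k3 : (fun q : Cm a × H => g q.1 q.2) =ᶠ[𝓝 (z, x)]
      fun q => c.symm (T (q.1, e q.2)) := by
    have k4 : ∀ᶠ q : Cm a × H in 𝓝 (z, x), q.2 ∈ e.source :=
      continuous_snd.continuousAt.eventually (e.open_source.mem_nhds hx)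
    filter_upwards [hq.eventually k2, k4] with q hq1 hq2
    rw [← hq1]
    show g q.1 q.2 = g q.1 (e.symm (e q.2))
    rw [e.left_inv hq2]
  have hsm : ContMDiffAt (𝓘(ℂ, Cm a).prod 𝓘(ℂ, Cm h)) 𝓘(ℂ, Cm d) ω
      (fun q : Cm a × H => g q.1 q.2) (z, x) := by
    refine ContMDiffAt.congr_of_eventuallyEq ?_ k3
    have k5 : ContMDiffAt (𝓘(ℂ, Cm a).prod 𝓘(ℂ, Cm h)) 𝓘(ℂ, Cm a × Cm h) ω
        (fun q : Cm a × H => (q.1, e q.2)) (z, x) :=
      ContMDiffAt.prodMk_space contMDiffAt_fst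
        (ContMDiffAt.comp (g := e) (z, x) (chart_at hea hx) contMDiffAt_snd)
    have k6 : ContMDiffAt (𝓘(ℂ, Cm a).prod 𝓘(ℂ, Cm h)) 𝓘(ℂ, Cm d) ω
        (fun q : Cm a × H => T (q.1, e q.2)) (z, x) :=
      ContMDiffAt.comp (g := T) (z, x) hT.contMDiffAt k5
    refine ContMDiffAt.comp (g := c.symm) (z, x) ?_ k6
    show ContMDiffAt 𝓘(ℂ, Cm d) 𝓘(ℂ, Cm d) ω c.symm (T (z, e x))
    rw [hTv]
    exact symm_at hca hv
  refine ⟨hsm, ?_⟩
  have hζs : ContMDiffAt 𝓘(ℂ, Cm d) 𝓘(ℂ, Cm a) ω ζ y₀ := contMDiffAt_pi_space.2 h5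
  have hηs : ContMDiffAt 𝓘(ℂ, Cm d) 𝓘(ℂ, Cm h) ω η y₀ := contMDiffAt_pi_space.2 hηj
  have hξs : ContMDiffAt 𝓘(ℂ, Cm d) 𝓘(ℂ, Cm h) ω ξ y₀ := by
    have k5 : ContMDiffAt 𝓘(ℂ, Cm d) 𝓘(ℂ, Cm h) ω (fun y => e.symm (η y)) y₀ := by
      refine ContMDiffAt.comp (g := e.symm) y₀ ?_ hηs
      show ContMDiffAt 𝓘(ℂ, Cm h) 𝓘(ℂ, Cm h) ω e.symm (e (ξ y₀))
      rw [h2]
      exact symm_at hea (e.map_source hx)
    refine k5.congr_of_eventuallyEq ?_
    filter_upwards [hev] with y hy'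
    exact (e.left_inv hy').symm
  have hLs : ContMDiffAt 𝓘(ℂ, Cm d) (𝓘(ℂ, Cm a).prod 𝓘(ℂ, Cm h)) ω (fun y => (ζ y, ξ y)) y₀ :=
    hζs.prodMk hξs
  have hLy : (ζ y₀, ξ y₀) = (z, x) := by rw [h1, h2]
  have k5 : MDifferentiableAt (𝓘(ℂ, Cm a).prod 𝓘(ℂ, Cm h)) 𝓘(ℂ, Cm d)
      (fun q : Cm a × H => g q.1 q.2) (ζ y₀, ξ y₀) := by
    rw [hLy]
    exact hsm.mdifferentiableAt (by simp)
  have k6 : MDifferentiableAt 𝓘(ℂ, Cm d) (𝓘(ℂ, Cm a).prod 𝓘(ℂ, Cm h))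
      (fun y => (ζ y, ξ y)) y₀ := hLs.mdifferentiableAt (by simp)
  have k7 := mfderiv_comp y₀ k5 k6
  have k8 : mfderiv 𝓘(ℂ, Cm d) 𝓘(ℂ, Cm d)
      ((fun q : Cm a × H => g q.1 q.2) ∘ fun y => (ζ y, ξ y)) y₀ =
      ContinuousLinearMap.id ℂ (Cm d) := by
    have k9 : ((fun q : Cm a × H => g q.1 q.2) ∘ fun y => (ζ y, ξ y)) =ᶠ[𝓝 y₀] id := h4
    rw [k9.mfderiv_eq]
    exact mfderiv_id
  rw [k8] at k7
  set A : Cm a × Cm h →L[ℂ] Cm d := mfderiv (𝓘(ℂ, Cm a).prod 𝓘(ℂ, Cm h)) 𝓘(ℂ, Cm d)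
    (fun q : Cm a × H => g q.1 q.2) (z, x) with hAd
  set B : Cm d →L[ℂ] Cm a × Cm h := mfderiv 𝓘(ℂ, Cm d) (𝓘(ℂ, Cm a).prod 𝓘(ℂ, Cm h))
    (fun y => (ζ y, ξ y)) y₀ with hBd
  have k9 : ∀ u, A (B u) = u := by
    intro u
    have k10 : (mfderiv (𝓘(ℂ, Cm a).prod 𝓘(ℂ, Cm h)) 𝓘(ℂ, Cm d)
        (fun q : Cm a × H => g q.1 q.2) (ζ y₀, ξ y₀) : Cm a × Cm h →L[ℂ] Cm d) = A := by
      rw [hAd, hLy]
    rw [← k10]
    exact (congrArg (fun T : Cm d →L[ℂ] Cm d => T u) k7).symm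
  have k11 : Function.Surjective A := fun u => ⟨B u, k9 u⟩
  exact (LinearMap.injective_iff_surjective_of_finrank_eq_finrank (f := A.toLinearMap)
    hfr.symm).2 k11

/-- **[BR3]** -/
theorem isTH_of [IsManifold 𝓘(ℂ, Cm d) ω F] (hF : H64.Z5.TorSympl d F) : H83.HKT.IsTH d F := by
  obtain ⟨a, n, H, i₁, i₂, Λ, g, h1, h2, ⟨h3, h4⟩, h5, h6, h7, h8, h9⟩ := hF
  have : CompactSpace H := h4.compact
  have : IsManifold 𝓘(ℂ, Cm n) ω H := h4.manifold
  refine ⟨a, n, H, i₁, i₂, Λ, fun q => g q.1 q.2, h1, h2, h3, h4.compact, h5, h4.manifold,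
    sympl_hk h6, fun y => ?_, fun q => ?_, fun q q' => h8 q.1 q.2 q'.1 q'.2⟩
  · obtain ⟨z, x, hzx⟩ := h7 y
    exact ⟨(z, x), hzx⟩
  · obtain ⟨ζ, ξ, k1, k2, k3, k4, k5, k6, k7⟩ := h9 q.1 q.2
    exact bihol h1 k1 k2 k3 k4 k5 k6 k7

end

end Vale.Agent.P281.H702.Z
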