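import Vale.Agent.P281.H64.TS.Spec2
import Vale.Agent.P281.H702.Z.Br2

/-!
# P281 (helper702): symplectic surfaces have geometric genus one
-/

open Set Filter Metric Vale.Agent.P272.K
open scoped Topology ContDiff Manifold

noncomputable section

namespace Vale.Agent.P281.H702.Z

open Vale.Agent.P281.H64.TK (jac dd)
open Vale.Agent.P281.H83.HK (IsHol2)

variable {F : Type} [TopologicalSpace F] [ChartedSpace (Cm 2) F]

/-- The matrix of a 2-form on a surface. -/
def ma (a : ℂ) : Matrix (Fin 2) (Fin 2) ℂ := !![0, a; -a, 0]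

theorem eq_ma {m : Matrix (Fin 2) (Fin 2) ℂ} (h : m.transpose = -m) : m = ma (m 0 1) := by
  have h1 : ∀ j k, m k j = -m j k := fun j k => congrFun (congrFun h j) k
  have h00 : m 0 0 = 0 := by
    have := h1 0 0
    linear_combination this / 2
  have h11 : m 1 1 = 0 := by
    have := h1 1 1
    linear_combination this / 2
  have h10 : m 1 0 = -m 0 1 := h1 0 1
  ext j k
  fin_cases j <;> fin_cases k <;> simp [ma, h00, h11, h10]

theorem ma_change (a : ℂ) (J : Matrix (Fin 2) (Fin 2) ℂ) :
    J.transpose * ma a * J = ma (a * J.det) := by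
  ext j k
  fin_cases j <;> fin_cases k <;>
    simp [ma, Matrix.mul_apply, Fin.sum_univ_two, Matrix.det_fin_two] <;> ring

/-- The top form of a 2-form on a surface. -/
theorem can_of {s : Chart 2 F → Cm 2 → Matrix (Fin 2) (Fin 2) ℂ} (hs : IsHol2 s) :
    H64.TK.TS.IsCan fun e z => s e z 0 1 where
  hol e he := hs.hol e he 0 1
  change e he e' he' x hx := by
    have h1 := hs.change e he e' he' x hx
    rw [eq_ma (hs.alt e' he' _ (e'.map_source hx.2)), ma_change] at h1
    rw [h1]
    simp [ma]

/-- The 2-form of a top form on a surface. -/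
theorem hol2_of {s : Chart 2 F → Cm 2 → ℂ} (hs : H64.TK.TS.IsCan s) :
    IsHol2 fun e z => ma (s e z) where
  hol e he j k := by
    fin_cases j <;> fin_cases k <;> simp only [ma] <;>
      first
        | exact differentiableOn_const _
        | exact hs.hol e he
        | exact (hs.hol e he).neg
  alt e he z hz := by
    ext j k
    fin_cases j <;> fin_cases k <;> simp [ma]
  closed e he z hz j k l := by
    have e00 : ∀ l : Fin 2, dd l (fun _ : Cm 2 => (0 : ℂ)) z = 0 := fun l => by
      simp [dd]
    have e10 : ∀ l : Fin 2, dd l (fun z => -s e z) z = -dd l (s e) z := fun l => by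
      simp only [dd]
      rw [fderiv_fun_neg]
      rfl
    fin_cases j <;> fin_cases k <;> fin_cases l <;> simp [ma, e00, e10]
  change e he e' he' x hx := by
    rw [ma_change, hs.change e he e' he' x hx]

variable [IsManifold 𝓘(ℂ, Cm 2) ω F]

/-- **[BR1]** -/
theorem pgOne_of (h : H64.Z.Sympl 2 F) : H64.TK.TS.PgOne 2 F := by
  obtain ⟨s, hs, ⟨e, he, u, hu, hne⟩, huniq⟩ := sympl_hk h
  refine ⟨fun e z => s e z 0 1, can_of hs, ⟨e, he, u, hu, fun h0 => hne ?_⟩, fun t ht => ?_⟩
  · have h1 : s e u 0 1 = 0 := h0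
    rw [eq_ma (hs.alt e he u hu), h1]
    simp [ma, Matrix.det_fin_two]
  · obtain ⟨c, hc⟩ := huniq _ (hol2_of ht)
    refine ⟨c, fun e he u hu => ?_⟩
    have h1 := congrFun (congrFun (hc e he u hu) 0) 1
    simpa [ma] using h1

end Vale.Agent.P281.H702.Z
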